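import Vale.Agent.P105.Bdl.B1

open MeasureTheory

namespace Vale.Agent.Results.P105.Disproof

open Vale.Agent.P105 Vale.Agent.P105.Salem

/-- (1) If `1 / lam` is a Salem number of degree four, then the Bernoulli convolution with
parameter `lam` is singular. (2) In particular there is `lam ∈ (1 / 2, 1)`, namely the root
`0.5806...` of `x ^ 4 - x ^ 3 - x ^ 2 - x + 1`, such that `1 / lam` is not a Pisot number and the
Bernoulli convolution with parameter `lam` is singular. -/
theorem result :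
    (∀ lam : ℝ, 0 < lam → IsSalem lam⁻¹ → (minpoly ℚ lam⁻¹).natDegree = 4 →
      bernConv lam ⟂ₘ volume) ∧
    ∃ lam : ℝ, 1 / 2 < lam ∧ lam < 1 ∧ lam ^ 4 - lam ^ 3 - lam ^ 2 - lam + 1 = 0 ∧
      IsSalem lam⁻¹ ∧ ¬ IsPisot lam⁻¹ ∧ bernConv lam ⟂ₘ volume :=
  main

end Vale.Agent.Results.P105.Disproof
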