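import Vale.Agent.P105.Bdl.B1

open MeasureTheory Real Filter Topology Polynomial

namespace Vale.Agent.Results.P105.Main

open Vale.Agent.P105

/-- Sufficient conditions for the absolute continuity of the Bernoulli convolution.
(1) any parameter: `m` is an upper bound for the exponential separation rate of the partial sums;
(2) algebraic parameters: `m` is the logarithm of the Mahler measure, and the Garsia entropy may be
replaced by `log 2` when `lam` is not a root of a polynomial with coefficients in `{-1, 0, 1}`;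
(3) algebraic parameters, in terms of the Mahler measure only, close to one;
(4) algebraic parameters with Mahler measure `M ≤ 2`: all `lam ≥ M ^ (-1 / 8)`;
(5) the roots `φ ^ (-1 / k)`, `k ≥ 2`, of the inverse golden ratio. -/
theorem result :
    (∀ lam m h s : ℝ, 0 < lam → lam < 1 → h = garsiaEntropy lam → s = log lam⁻¹ / m →
      (∀ ε > 0, ∀ᶠ n : ℕ in atTop, ∀ e e' : Fin n → Bool, psum lam n e ≠ psum lam n e' →
        exp (-(m + ε) * n) ≤ |psum lam n e - psum lam n e'|) →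
      (27 * (m - h) * m ^ 2 < lam ^ 4 * (m - log lam⁻¹) ^ 3 ∨
        2 * exp 1 * log lam⁻¹ * (m - h) / ((1 - lam ^ 2) * m) < 1 - s ^ 2 + 2 * s * log s ∨
        (0 < h ∧ 16 * log lam⁻¹ * (4 + log (m / h)) ^ 2 ≤ h)) →
      bernConv lam ≪ volume) ∧
    (∀ (lam m h s : ℝ) (P : ℤ[X]), 0 < lam → lam < 1 → P ≠ 0 → aeval lam P = 0 →
      m = log (mahler P) → s = log lam⁻¹ / m →
      (h = garsiaEntropy lam ∨
        (h = log 2 ∧ ∀ Q : ℤ[X], Q ≠ 0 → (∀ i, |Q.coeff i| ≤ 1) → aeval lam Q ≠ 0)) →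
      (27 * (m - h) * m ^ 2 < lam ^ 4 * (m - log lam⁻¹) ^ 3 ∨
        2 * exp 1 * log lam⁻¹ * (m - h) / ((1 - lam ^ 2) * m) < 1 - s ^ 2 + 2 * s * log s ∨
        (0 < h ∧ 16 * log lam⁻¹ * (4 + log (m / h)) ^ 2 ≤ h)) →
      bernConv lam ≪ volume) ∧
    (∀ (lam : ℝ) (P : ℤ[X]), 0 < lam → lam < 1 → Irreducible P → aeval lam P = 0 →
      1700 * log lam⁻¹ * (1 + max 0 (log (log (mahler P)))) ^ 2 ≤ min 1 (log (mahler P)) →
      bernConv lam ≪ volume) ∧
    (∀ (lam : ℝ) (P : ℤ[X]), 0 < lam → lam < 1 → Irreducible P → aeval lam P = 0 →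
      mahler P ≤ 2 → (mahler P) ^ (-(1 / 8) : ℝ) ≤ lam →
      bernConv lam ≪ volume) ∧
    (∀ k : ℕ, 2 ≤ k → bernConv (((1 + √5) / 2)⁻¹ ^ (1 / k : ℝ)) ≪ volume) := by
  refine ⟨fun lam m h s h0 h1 hh hs hsep hc => ?_, fun lam m h s P h0 h1 hP hl hm hs hh hc => ?_,
    fun lam P h0 h1 hP hl hc => ?_, fun lam P h0 h1 hP hl hM hc => ?_,
    fun k hk => golden_root_ac hk⟩
  · rw [hs] at hc
    exact bern_all h0 h1 hsep hh.le hc
  · rw [hs, hm] at hc
    refine bern_all h0 h1 (fun _ hε => sep_mahler hP hl hε) ?_ hc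
    rcases hh with hh | ⟨hh, hno⟩
    · exact hh.le
    · rw [hh]
      exact log_two_le_garsia hno
  · rw [log_inv] at hc
    exact bern_near_mahler h0 h1 hP hl hc
  · refine small_mahler h0 h1 hP hl hM ?_
    have hM1 := one_le_mahler hP.ne_zero
    have h2 := log_le_log (by positivity) hc
    rw [log_rpow (by linarith)] at h2
    linarith

end Vale.Agent.Results.P105.Main
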